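import Vale.Agent.P052.Data
import Mathlib.Tactic

namespace Vale.Agent.P052

open Data

/-- The packed adjacency row of vertex `i`: the sum of `128 ^ j` over the neighbours `j`. -/
def pk (i : ℕ) : ℕ := (packTable.getD (i / 21) []).getD (i % 21) 0

def nbCode (i : ℕ) : ℕ := (nbrTable.getD (i / 21) []).getD (i % 21) 0

/-- The `k`-th entry, nine bits wide, of a packed list. -/
def fld (c k : ℕ) : ℕ := (c >>> (9 * k)) % 512

def fields (c : ℕ) : ℕ → List ℕ
  | 0 => []
  | n + 1 => fld c 0 :: fields (c >>> 9) n

/-- The neighbours of vertex `i`. -/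
def nbrs (i : ℕ) : List ℕ := fields (nbCode i) 100

def adjb (i j : ℕ) : Bool := Nat.testBit (pk i) (7 * j)

def upto (n : ℕ) (p : ℕ → Bool) : Bool := n.rec true fun k ih => p k && ih

def sumPk (l : List ℕ) : ℕ := l.foldr (fun j s => pk j + s) 0

def packOf (l : List ℕ) : ℕ := l.foldr (fun j s => (1 <<< (7 * j)) + s) 0

def onesPack : ℕ := (128 ^ 416 - 1) / 127

def checkRows : Bool :=
  upto 416 fun i => decide ((nbrs i).IsChain (· < ·)) && (nbrs i).all (fun j => decide (j < 416))
    && Nat.beq (packOf (nbrs i)) (pk i)

def checkSquare : Bool :=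
  upto 416 fun i => Nat.beq (sumPk (nbrs i)) (20 * onesPack + 80 * (1 <<< (7 * i)) + 16 * pk i)

def checkSymm : Bool :=
  upto 416 fun i => (nbrs i).all (fun j => adjb j i) && !(adjb i i)

def checkAut (g h : ℕ) : Bool :=
  upto 416 fun a => decide (fld g a < 416) && Nat.beq (fld h (fld g a)) a &&
    Nat.beq (packOf ((nbrs a).map (fld g))) (pk (fld g a))

def selG (x : ℕ) : ℕ := if Nat.testBit selMask x then permB else permA

def checkTree : Bool :=
  upto 416 fun x => Nat.beq x 0 || decide (fld depthCode (fld (selG x) x) < fld depthCode x)

/-- No `k` pairwise adjacent entries in the list. -/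
def noCl : ℕ → List ℕ → Bool
  | 0 => fun _ => false
  | k + 1 => fun l => l.rec true fun v t ih => noCl k (t.filter (adjb v)) && ih

def checkClique : Bool := noCl 5 (nbrs 0)

def checkKer (p m : ℕ) : Bool :=
  upto 416 fun i => Nat.beq
    ((nbrs i).countP (Nat.testBit p) + if Nat.testBit m i then 20 else 0)
    ((nbrs i).countP (Nat.testBit m) + if Nat.testBit p i then 20 else 0)

theorem checkRows_eq : checkRows = true := by decide +kernel

theorem checkSquare_eq : checkSquare = true := by decide +kernel

theorem checkSymm_eq : checkSymm = true := by decide +kernel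

theorem checkAutA_eq : checkAut permA permAInv = true := by decide +kernel

theorem checkAutB_eq : checkAut permB permBInv = true := by decide +kernel

theorem checkTree_eq : checkTree = true := by decide +kernel

theorem checkClique_eq : checkClique = true := by decide +kernel

theorem checkKerA_eq : checkKer posA negA = true := by decide +kernel

theorem checkKerB_eq : checkKer posB negB = true := by decide +kernel

end Vale.Agent.P052
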