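import Mathlib.Analysis.InnerProductSpace.PiL2
import Mathlib.Topology.MetricSpace.Bounded

namespace Vale.Agent.P052

/-- `Y` cannot be written as a union of `k` subsets of diameter smaller than that of `Y`. -/
def NeedsMore {d : ℕ} (k : ℕ) (Y : Set (EuclideanSpace ℝ (Fin d))) : Prop :=
  ¬ ∃ Z : Fin k → Set (EuclideanSpace ℝ (Fin d)),
    Y = ⋃ i, Z i ∧ ∀ i, Metric.diam (Z i) < Metric.diam Y

end Vale.Agent.P052
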