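import Vale.Agent.P052.Graph
import Vale.Agent.P052.Defs
import Mathlib.Analysis.InnerProductSpace.Projection.FiniteDimensional
import Mathlib.Combinatorics.Pigeonhole
import Mathlib.LinearAlgebra.Trace

namespace Vale.Agent.P052

open Data Finset

abbrev V := EuclideanSpace ℝ (Fin 416)

abbrev adj (i j : Fin 416) : Prop := adjb i.1 j.1 = true

noncomputable def aM (i j : Fin 416) : ℝ := if adj i j then 1 else 0

noncomputable def dlt (i j : Fin 416) : ℝ := if i = j then 1 else 0

theorem aM_symm (i j : Fin 416) : aM i j = aM j i := by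
  unfold aM
  by_cases h : adj i j
  · rw [if_pos h, if_pos (show adj j i from adjb_symm i.2 j.2 h)]
  · rw [if_neg h, if_neg (fun h' => h (adjb_symm j.2 i.2 h'))]

theorem not_adj_self (i : Fin 416) : ¬ adj i i := by
  intro h
  unfold adj at h
  rw [adjb_irrefl i.2] at h
  exact Bool.noConfusion h

theorem aM_sq (i j : Fin 416) :
    ∑ l, aM i l * aM l j = 20 + 80 * dlt i j + 16 * aM i j := by
  have h := congrArg (fun n : ℕ => (n : ℝ)) (two_step i.2 j.2)
  simp only [Nat.cast_sum, Nat.cast_add, Nat.cast_ite, Nat.cast_ofNat, Nat.cast_zero,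
    Nat.cast_one] at h
  rw [Finset.sum_range] at h
  have h1 : ∀ l : Fin 416, aM i l * aM l j
      = if adjb i.1 l.1 then (if adjb l.1 j.1 then (1 : ℝ) else 0) else 0 := by
    intro l
    simp only [aM, adj]
    split_ifs <;> simp
  rw [Finset.sum_congr rfl fun l _ => h1 l, h]
  have e1 : (if j.1 = i.1 then (80 : ℝ) else 0) = 80 * dlt i j := by
    simp only [dlt, Fin.val_inj, eq_comm (a := j)]
    split <;> simp
  have e2 : (if adjb i.1 j.1 then (16 : ℝ) else 0) = 16 * aM i j := by
    simp only [aM, adj]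
    split <;> simp
  rw [e1, e2]

theorem aM_row (i : Fin 416) : ∑ l, aM i l = 100 := by
  have h := aM_sq i i
  have e : ∑ l, aM i l * aM l i = ∑ l, aM i l := by
    apply Finset.sum_congr rfl
    intro l _
    rw [aM_symm l i]
    simp only [aM]
    split <;> simp
  rw [e] at h
  rw [h]
  have : aM i i = 0 := if_neg (not_adj_self i)
  simp [dlt, this]
  norm_num

theorem aM_col (j : Fin 416) : ∑ l, aM l j = 100 := by
  rw [← aM_row j]
  exact Finset.sum_congr rfl fun l _ => aM_symm l j

/-- The orthogonal projection onto the 65-dimensional eigenspace. -/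
noncomputable def pM : Matrix (Fin 416) (Fin 416) ℝ :=
  fun i j => (4 * aM i j + 16 * dlt i j - 1) / 96

theorem dlt_symm (i j : Fin 416) : dlt i j = dlt j i := by
  simp only [dlt, eq_comm]

theorem pM_symm (i j : Fin 416) : pM i j = pM j i := by
  simp only [pM, aM_symm i j, dlt_symm i j]

theorem pM_mul (i j : Fin 416) : ∑ l, pM i l * pM l j = pM i j := by
  have e : ∀ l, pM i l * pM l j = (16 * (aM i l * aM l j) + 64 * (aM i l * dlt l j)
      + 64 * (dlt i l * aM l j) + 256 * (dlt i l * dlt l j)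
      - 4 * aM i l - 4 * aM l j - 16 * dlt i l - 16 * dlt l j + 1) / 9216 := by
    intro l
    simp only [pM]
    ring
  have d1 : ∑ l, aM i l * dlt l j = aM i j := by simp [dlt]
  have d2 : ∑ l, dlt i l * aM l j = aM i j := by simp [dlt]
  have d3 : ∑ l, dlt i l * dlt l j = dlt i j := by simp [dlt]
  have d4 : ∑ l, dlt i l = 1 := by simp [dlt]
  have d5 : ∑ l, dlt l j = 1 := by simp [dlt]
  rw [Finset.sum_congr rfl fun l _ => e l, ← Finset.sum_div]
  simp only [Finset.sum_add_distrib, Finset.sum_sub_distrib, ← Finset.mul_sum, aM_sq, aM_row,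
    aM_col, d1, d2, d3, d4, d5, Finset.sum_const, Finset.card_univ, Fintype.card_fin,
    nsmul_eq_mul, mul_one]
  simp only [pM]
  ring

theorem pM_self (i : Fin 416) : pM i i = 15 / 96 := by
  simp [pM, aM, dlt, not_adj_self]
  norm_num

theorem pM_ne {i j : Fin 416} (h : i ≠ j) :
    pM i j = if adj i j then 3 / 96 else -1 / 96 := by
  simp only [pM, aM, dlt, if_neg h]
  split <;> norm_num

noncomputable def proj : V →ₗ[ℝ] V := Matrix.toEuclideanLin pM

theorem proj_apply (x : V) (i : Fin 416) : proj x i = ∑ j, pM i j * x j := by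
  simp [proj, Matrix.toEuclideanLin, Matrix.mulVec, dotProduct]

theorem proj_proj (x : V) : proj (proj x) = proj x := by
  ext i
  simp only [proj_apply, Finset.mul_sum]
  rw [Finset.sum_comm]
  apply Finset.sum_congr rfl
  intro j _
  rw [← pM_mul i j, Finset.sum_mul]
  apply Finset.sum_congr rfl
  intro l _
  ring

noncomputable abbrev rg : Submodule ℝ V := LinearMap.range proj

theorem finrank_rg : Module.finrank ℝ rg = 65 := by
  have hp : LinearMap.IsProj rg proj := by
    refine ⟨fun x => LinearMap.mem_range_self proj x, ?_⟩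
    rintro x ⟨y, rfl⟩
    exact proj_proj y
  have h1 := hp.trace
  have h2 : LinearMap.trace ℝ V proj = pM.trace := by
    rw [proj, Matrix.toEuclideanLin_eq_toLin_orthonormal]
    rw [LinearMap.trace_eq_matrix_trace ℝ (EuclideanSpace.basisFun (Fin 416) ℝ).toBasis,
      LinearMap.toMatrix_toLin]
  rw [h2] at h1
  have h3 : pM.trace = 65 := by
    simp [Matrix.trace, Matrix.diag, pM_self]
    norm_num
  rw [h3] at h1
  exact_mod_cast h1.symm

noncomputable def pt (i : Fin 416) : V := WithLp.toLp 2 fun l => pM l i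

theorem pt_mem (i : Fin 416) : pt i ∈ rg := by
  refine ⟨EuclideanSpace.single i 1, ?_⟩
  ext l
  simp [proj_apply, pt]

theorem inner_eq (x y : V) : inner ℝ x y = ∑ l, x l * y l := by
  rw [PiLp.inner_apply]
  exact Finset.sum_congr rfl fun l _ => by simp [mul_comm]

theorem inner_pt (i j : Fin 416) : inner ℝ (pt i) (pt j) = pM i j := by
  rw [inner_eq, ← pM_mul i j]
  exact Finset.sum_congr rfl fun l _ => by simp [pt, pM_symm l i]

theorem pt_dist (i j : Fin 416) :
    ‖pt i - pt j‖ ^ 2 = 30 / 96 - 2 * pM i j := by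
  rw [norm_sub_sq_real, ← real_inner_self_eq_norm_sq, ← real_inner_self_eq_norm_sq,
    inner_pt, inner_pt, inner_pt, pM_self, pM_self]
  ring

noncomputable def evec (p m : ℕ) : V := WithLp.toLp 2 fun l => (sgn p m l.1 : ℝ)

theorem evec_apply (p m : ℕ) (l : Fin 416) : evec p m l = (sgn p m l.1 : ℝ) := rfl

theorem evec_A {p m : ℕ} (h : checkKer p m = true) (i : Fin 416) :
    ∑ j, aM i j * evec p m j = 20 * evec p m i := by
  have h' := congrArg (fun n : ℤ => (n : ℝ)) (ker_spec h i.2)
  simp only [Int.cast_sum, Int.cast_ite, Int.cast_zero, Int.cast_mul, Int.cast_ofNat] at h'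
  rw [Finset.sum_range] at h'
  simp only [evec_apply]
  rw [← h']
  apply Finset.sum_congr rfl
  intro j _
  simp only [aM, adj]
  split <;> simp

theorem evec_sum {p m : ℕ} (h : checkKer p m = true) : ∑ j, evec p m j = 0 := by
  have h1 : ∑ i, ∑ j, aM i j * evec p m j = 20 * ∑ j, evec p m j := by
    rw [Finset.mul_sum]
    exact Finset.sum_congr rfl fun i _ => evec_A h i
  rw [Finset.sum_comm] at h1
  simp only [← Finset.sum_mul, aM_col, ← Finset.mul_sum] at h1
  linarith

theorem evec_mem {p m : ℕ} (h : checkKer p m = true) : evec p m ∈ rg := by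
  refine ⟨evec p m, ?_⟩
  ext i
  rw [proj_apply]
  have e : ∀ j, pM i j * evec p m j
      = (4 * (aM i j * evec p m j) + 16 * (dlt i j * evec p m j) - evec p m j) / 96 := by
    intro j
    simp only [pM]
    ring
  have d : ∑ j, dlt i j * evec p m j = evec p m i := by simp [dlt]
  rw [Finset.sum_congr rfl fun j _ => e j, ← Finset.sum_div, Finset.sum_sub_distrib,
    Finset.sum_add_distrib, ← Finset.mul_sum, ← Finset.mul_sum, evec_A h, d, evec_sum h]
  ring

theorem inner_pt_evec {p m : ℕ} (h : checkKer p m = true) (i : Fin 416) :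
    inner ℝ (pt i) (evec p m) = evec p m i := by
  have e : proj (evec p m) = evec p m := by
    obtain ⟨y, hy⟩ := evec_mem h
    rw [← hy, proj_proj]
  conv_rhs => rw [← e]
  rw [inner_eq, proj_apply]
  exact Finset.sum_congr rfl fun l _ => by simp [pt, pM_symm i l]

theorem sgn_eq_zero {p m s : ℕ} (hp : p &&& s = p) (hm : m &&& s = m) {j : ℕ}
    (hs : Nat.testBit s j = false) : sgn p m j = 0 := by
  have h1 : Nat.testBit p j = false := by rw [← hp, Nat.testBit_and, hs, Bool.and_false]
  have h2 : Nat.testBit m j = false := by rw [← hm, Nat.testBit_and, hs, Bool.and_false]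
  simp [sgn, h1, h2]

/-- The vectors of the eigenspace orthogonal to those in `s`. -/
noncomputable def flat (s : Set V) : Submodule ℝ V :=
  (Submodule.span ℝ s)ᗮ ⊓ rg

theorem finrank_flat {s : Set V} (hs : s ⊆ rg) :
    Module.finrank ℝ (Submodule.span ℝ s) + Module.finrank ℝ (flat s) = 65 := by
  rw [← finrank_rg]
  exact Submodule.finrank_add_inf_finrank_orthogonal (Submodule.span_le.2 hs)

theorem pt_mem_flat {s : Set V} {i : Fin 416} (h : ∀ u ∈ s, inner ℝ (pt i) u = 0) :
    pt i ∈ flat s := by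
  refine ⟨?_, pt_mem i⟩
  show pt i ∈ (Submodule.span ℝ s)ᗮ
  rw [Submodule.mem_orthogonal']
  intro u hu
  refine Submodule.span_induction h ?_ ?_ ?_ hu
  · exact inner_zero_right _
  · intro x y _ _ hx hy
    rw [inner_add_right, hx, hy, add_zero]
  · intro a x _ hx
    rw [inner_smul_right, hx, mul_zero]

/-- A finite configuration of diameter squared at most `1/3` in which every colouring with
`k` colours has two points of one colour at squared distance `1/3`. -/
def Hard (d k : ℕ) : Prop :=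
  ∃ (ι : Type) (_ : Finite ι) (f : ι → EuclideanSpace ℝ (Fin d)),
    (∀ i j, ‖f i - f j‖ ^ 2 ≤ 1 / 3) ∧
    ∀ col : ι → Fin k, ∃ i j, col i = col j ∧ ‖f i - f j‖ ^ 2 = 1 / 3

/-- A `Hard` configuration on a sphere of squared radius at most `1/6`. -/
def SHard (d k : ℕ) : Prop :=
  ∃ (ι : Type) (_ : Finite ι) (f : ι → EuclideanSpace ℝ (Fin d))
      (c : EuclideanSpace ℝ (Fin d)) (r : ℝ),
    r ≤ 1 / 6 ∧ (∀ i, ‖f i - c‖ ^ 2 = r) ∧
    (∀ i j, ‖f i - f j‖ ^ 2 ≤ 1 / 3) ∧
    ∀ col : ι → Fin k, ∃ i j, col i = col j ∧ ‖f i - f j‖ ^ 2 = 1 / 3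

theorem Hard.of_SHard {d k : ℕ} (h : SHard d k) : Hard d k := by
  obtain ⟨ι, hf, f, c, r, -, -, h1, h2⟩ := h
  exact ⟨ι, hf, f, h1, h2⟩

theorem Hard.needsMore {d k : ℕ} (hk : 0 < k) (h : Hard d k) :
    ∃ Y : Set (EuclideanSpace ℝ (Fin d)),
      Bornology.IsBounded Y ∧ 0 < Metric.diam Y ∧ NeedsMore k Y := by
  obtain ⟨ι, hf, f, h1, h2⟩ := h
  have hfin : (Set.range f).Finite := Set.finite_range f
  have hdist : ∀ i j, dist (f i) (f j) ≤ Real.sqrt (1 / 3) := by
    intro i j
    rw [dist_eq_norm]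
    exact Real.le_sqrt_of_sq_le (h1 i j)
  have hub : Metric.diam (Set.range f) ≤ Real.sqrt (1 / 3) := by
    refine Metric.diam_le_of_forall_dist_le (Real.sqrt_nonneg _) ?_
    rintro _ ⟨i, rfl⟩ _ ⟨j, rfl⟩
    exact hdist i j
  have heq : ∀ i j, ‖f i - f j‖ ^ 2 = 1 / 3 → dist (f i) (f j) = Real.sqrt (1 / 3) := by
    intro i j hij
    rw [dist_eq_norm, ← hij, Real.sqrt_sq (norm_nonneg _)]
  obtain ⟨i₀, j₀, -, h0⟩ := h2 fun _ => ⟨0, hk⟩
  have hpos : (0 : ℝ) < Real.sqrt (1 / 3) := Real.sqrt_pos.2 (by norm_num)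
  have hlow : Real.sqrt (1 / 3) ≤ Metric.diam (Set.range f) := by
    rw [← heq _ _ h0]
    exact Metric.dist_le_diam_of_mem hfin.isBounded ⟨i₀, rfl⟩ ⟨j₀, rfl⟩
  refine ⟨Set.range f, hfin.isBounded, lt_of_lt_of_le hpos hlow, ?_⟩
  rintro ⟨Z, hZ, hlt⟩
  have hcov : ∀ i, ∃ c, f i ∈ Z c := fun i => Set.mem_iUnion.1 (hZ ▸ Set.mem_range_self i)
  choose col hcol using hcov
  obtain ⟨i, j, hij, hd⟩ := h2 col
  have hb : Bornology.IsBounded (Z (col i)) :=
    hfin.isBounded.subset (hZ ▸ Set.subset_iUnion Z (col i))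
  have h3 := Metric.dist_le_diam_of_mem hb (hcol i) (hij ▸ hcol j)
  rw [heq _ _ hd] at h3
  linarith [hlt (col i)]

theorem clique_card (S : Finset (Fin 416))
    (h : ∀ a ∈ S, ∀ b ∈ S, a ≠ b → adj a b) : S.card ≤ 5 := by
  rw [← Finset.card_map Fin.valEmbedding]
  refine clique_card_le _ ?_ ?_
  · intro a ha
    obtain ⟨a', -, rfl⟩ := Finset.mem_map.1 ha
    exact a'.2
  · intro a ha b hb hab
    obtain ⟨a', ha', rfl⟩ := Finset.mem_map.1 ha
    obtain ⟨b', hb', rfl⟩ := Finset.mem_map.1 hb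
    exact h a' ha' b' hb' fun e => hab (e ▸ rfl)

theorem exists_pair {ι : Type} [Fintype ι] (σ : ι → Fin 416) (hσ : Function.Injective σ)
    (k : ℕ) (hk : 5 * k < Fintype.card ι) (P : ι → ι → Prop)
    (hP : ∀ i j, i ≠ j → ¬ adj (σ i) (σ j) → P i j) (col : ι → Fin k) :
    ∃ i j, col i = col j ∧ P i j := by
  classical
  obtain ⟨c, hc⟩ := Fintype.exists_lt_card_fiber_of_mul_lt_card col (n := 5)
    (by rw [Fintype.card_fin]; omega)
  by_contra hne
  push Not at hne
  have h5 := clique_card ((Finset.univ.filter fun i => col i = c).map ⟨σ, hσ⟩) (by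
    intro a ha b hb hab
    obtain ⟨i, hi, rfl⟩ := Finset.mem_map.1 ha
    obtain ⟨j, hj, rfl⟩ := Finset.mem_map.1 hb
    by_contra hnadj
    refine hne i j ?_ (hP i j (fun e => hab (e ▸ rfl)) hnadj)
    rw [(Finset.mem_filter.1 hi).2, (Finset.mem_filter.1 hj).2])
  rw [Finset.card_map] at h5
  omega

noncomputable def coord (W : Submodule ℝ V) {m : ℕ} (h : Module.finrank ℝ W = m) :
    W ≃ₗᵢ[ℝ] EuclideanSpace ℝ (Fin m) :=
  ((stdOrthonormalBasis ℝ W).reindex (finCongr h)).repr

theorem coord_dist (W : Submodule ℝ V) {m : ℕ} (h : Module.finrank ℝ W = m) (x y : W) :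
    ‖coord W h x - coord W h y‖ = ‖(x : V) - y‖ := by
  rw [← map_sub, LinearIsometryEquiv.norm_map]
  rfl

theorem base64 : SHard 64 65 := by
  classical
  let s : Set V := {evec posA negA}
  have hs : s ⊆ rg := by
    intro x hx
    rw [Set.mem_singleton_iff.1 hx]
    exact evec_mem checkKerA_eq
  have hne : evec posA negA ≠ 0 := by
    intro h
    have := congrArg (fun v : V => v ⟨12, by norm_num⟩) h
    have e : sgn posA negA 12 ≠ 0 := by decide +kernel
    simp [evec_apply, e] at this
  have hdim : Module.finrank ℝ (flat s) = 64 := by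
    have := finrank_flat hs
    rw [finrank_span_singleton hne] at this
    omega
  let ι := {i : Fin 416 // Nat.testBit supA i.1 = false}
  have hmem : ∀ i : ι, pt i.1 ∈ flat s := by
    intro i
    refine pt_mem_flat fun u hu => ?_
    rw [Set.mem_singleton_iff.1 hu, inner_pt_evec checkKerA_eq, evec_apply,
      sgn_eq_zero (s := supA) (by decide +kernel) (by decide +kernel) i.2]
    simp
  let f : ι → EuclideanSpace ℝ (Fin 64) := fun i => coord (flat s) hdim ⟨pt i.1, hmem i⟩
  have hf : ∀ i j, ‖f i - f j‖ ^ 2 = 30 / 96 - 2 * pM i.1 j.1 := by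
    intro i j
    simp only [f, coord_dist, pt_dist]
  refine ⟨ι, inferInstance, f, 0, 15 / 96, by norm_num, ?_, ?_, ?_⟩
  · intro i
    rw [sub_zero]
    simp only [f, LinearIsometryEquiv.norm_map]
    show ‖pt i.1‖ ^ 2 = _
    rw [← real_inner_self_eq_norm_sq, inner_pt, pM_self]
  · intro i j
    rw [hf]
    by_cases hij : i.1 = j.1
    · rw [hij, pM_self]; norm_num
    · rw [pM_ne hij]; split <;> norm_num
  · intro col
    have hcard : Fintype.card ι = 352 := by decide +kernel
    refine exists_pair (fun i : ι => i.1) Subtype.val_injective 65 (by omega)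
      (fun i j => ‖f i - f j‖ ^ 2 = 1 / 3) ?_ col
    intro i j hij hadj
    rw [hf, pM_ne (fun e => hij (Subtype.ext e)), if_neg hadj]
    norm_num

theorem root_exists {σ : ℝ} (h : 0 < σ) :
    ∃ t : ℝ, 0 < t ∧ t ^ 2 * σ + t / 48 = 17 / 96 := by
  have hD : 0 ≤ (1 / 48 : ℝ) ^ 2 + 4 * σ * (17 / 96) := by positivity
  obtain ⟨r, hr0, hr⟩ : ∃ r : ℝ, 0 ≤ r ∧ r ^ 2 = (1 / 48 : ℝ) ^ 2 + 4 * σ * (17 / 96) :=
    ⟨_, Real.sqrt_nonneg _, Real.sq_sqrt hD⟩
  have hgt : 1 / 48 < r := by
    by_contra hle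
    push Not at hle
    have h1 : r ^ 2 ≤ (1 / 48 : ℝ) ^ 2 := pow_le_pow_left₀ hr0 hle 2
    linarith
  refine ⟨(r - 1 / 48) / (2 * σ), div_pos (by linarith) (by linarith), ?_⟩
  field_simp
  ring_nf
  ring_nf at hr
  nlinarith

theorem base63 : Hard 63 64 := by
  classical
  let ua := evec posA negA
  let ub := evec posB negB
  let s : Set V := Set.range ![ua, ub]
  have hs : s ⊆ rg := by
    rintro x ⟨t, rfl⟩
    fin_cases t
    · exact evec_mem checkKerA_eq
    · exact evec_mem checkKerB_eq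
  have hli : LinearIndependent ℝ ![ua, ub] := by
    rw [LinearIndependent.pair_iff]
    intro a b hab
    have h12 := congrArg (fun v : V => v ⟨12, by norm_num⟩) hab
    have h14 := congrArg (fun v : V => v ⟨14, by norm_num⟩) hab
    have e1 : sgn posB negB 12 = 0 := by decide +kernel
    have e2 : sgn posA negA 14 = 0 := by decide +kernel
    have e3 : sgn posA negA 12 ≠ 0 := by decide +kernel
    have e4 : sgn posB negB 14 ≠ 0 := by decide +kernel
    simp [ua, ub, evec_apply, e1, e2, e3, e4] at h12 h14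
    exact ⟨h12, h14⟩
  have hdim : Module.finrank ℝ (flat s) = 63 := by
    have := finrank_flat hs
    rw [finrank_span_eq_card hli, Fintype.card_fin] at this
    omega
  let κ := {i : Fin 416 // Nat.testBit supAB i.1 = false}
  have hmem : ∀ i : κ, pt i.1 ∈ flat s := by
    intro i
    refine pt_mem_flat ?_
    rintro u ⟨t, rfl⟩
    fin_cases t
    · show inner ℝ (pt i.1) ua = 0
      rw [inner_pt_evec checkKerA_eq, evec_apply,
        sgn_eq_zero (s := supAB) (by decide +kernel) (by decide +kernel) i.2]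
      simp
    · show inner ℝ (pt i.1) ub = 0
      rw [inner_pt_evec checkKerB_eq, evec_apply,
        sgn_eq_zero (s := supAB) (by decide +kernel) (by decide +kernel) i.2]
      simp
  have hw : ∀ i : κ, (0 : Fin 416) ≠ i.1 := by
    intro i h
    have := i.2
    rw [← h] at this
    revert this
    decide +kernel
  let v : V := (flat s).starProjection (pt 0)
  have hv : v ∈ flat s := Submodule.starProjection_apply_mem _ _
  have hvi : ∀ i : κ, inner ℝ v (pt i.1) = pM 0 i.1 := by
    intro i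
    have h := Submodule.starProjection_inner_eq_zero (K := flat s) (pt 0) (pt i.1) (hmem i)
    rw [inner_sub_left, sub_eq_zero, inner_pt] at h
    exact h.symm
  have hcard : Fintype.card κ = 320 := by decide +kernel
  have hv0 : v ≠ 0 := by
    intro h
    obtain ⟨i⟩ : Nonempty κ := Fintype.card_pos_iff.1 (by omega)
    have := hvi i
    rw [h, inner_zero_left, pM_ne (hw i)] at this
    split at this <;> norm_num at this
  let σ2 := ‖v‖ ^ 2
  have hs0 : 0 < σ2 := by positivity
  obtain ⟨t, ht, hteq⟩ := root_exists hs0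
  let q : flat s := ⟨t • v, (flat s).smul_mem t hv⟩
  let g : Option κ → flat s := fun o => o.elim q fun i => ⟨pt i.1, hmem i⟩
  let σ : Option κ → Fin 416 := fun o => o.elim 0 fun i => i.1
  have hσ : Function.Injective σ := by
    rintro (_ | i) (_ | j) h
    · rfl
    · exact absurd h (hw j)
    · exact absurd h.symm (hw i)
    · exact congrArg some (Subtype.ext h)
  let f : Option κ → EuclideanSpace ℝ (Fin 63) := fun o => coord (flat s) hdim (g o)
  have hqi : ∀ i : κ, ‖(q : V) - pt i.1‖ ^ 2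
      = if adj 0 i.1 then 1 / 3 - t / 12 else 1 / 3 := by
    intro i
    show ‖t • v - pt i.1‖ ^ 2 = _
    rw [norm_sub_sq_real, inner_smul_left, norm_smul, mul_pow, Real.norm_eq_abs, sq_abs,
      hvi, ← real_inner_self_eq_norm_sq (pt i.1), inner_pt, pM_self, pM_ne (hw i)]
    simp only [conj_trivial]
    change t ^ 2 * σ2 - _ + _ = _
    split <;> linarith
  have hf : ∀ o o', o ≠ o' → ‖f o - f o'‖ ^ 2 ≤ 1 / 3 ∧
      (¬ adj (σ o) (σ o') → ‖f o - f o'‖ ^ 2 = 1 / 3) := by
    intro o o' hne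
    simp only [f, coord_dist]
    rcases o with _ | i <;> rcases o' with _ | j
    · exact absurd rfl hne
    · change ‖(q : V) - pt j.1‖ ^ 2 ≤ _ ∧ (¬ adj 0 j.1 → ‖(q : V) - pt j.1‖ ^ 2 = _)
      rw [hqi]
      exact ⟨by split <;> linarith, fun h => if_neg h⟩
    · change ‖pt i.1 - (q : V)‖ ^ 2 ≤ _ ∧ (¬ adj i.1 0 → ‖pt i.1 - (q : V)‖ ^ 2 = _)
      rw [norm_sub_rev, hqi]
      exact ⟨by split <;> linarith, fun h => if_neg fun h' => h (adjb_symm (Fin.is_lt _) i.1.2 h')⟩
    · have hij : i.1 ≠ j.1 := fun e => hne (congrArg some (Subtype.ext e))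
      change ‖pt i.1 - pt j.1‖ ^ 2 ≤ _ ∧ (¬ adj i.1 j.1 → ‖pt i.1 - pt j.1‖ ^ 2 = _)
      rw [pt_dist, pM_ne hij]
      exact ⟨by split <;> norm_num, fun h => by rw [if_neg h]; norm_num⟩
  refine ⟨Option κ, inferInstance, f, ?_, ?_⟩
  · intro o o'
    by_cases h : o = o'
    · rw [h, sub_self, norm_zero]; norm_num
    · exact (hf o o' h).1
  · intro col
    refine exists_pair σ hσ 64 ?_ (fun i j => ‖f i - f j‖ ^ 2 = 1 / 3) ?_ col
    · rw [Fintype.card_option, hcard]; norm_num
    · exact fun i j hij h => (hf i j hij).2 h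

/-- Append one coordinate. -/
noncomputable def ext1 {d : ℕ} (x : EuclideanSpace ℝ (Fin d)) (t : ℝ) :
    EuclideanSpace ℝ (Fin (d + 1)) := WithLp.toLp 2 (Fin.snoc x.ofLp t)

theorem ext1_dist {d : ℕ} (x y : EuclideanSpace ℝ (Fin d)) (s t : ℝ) :
    ‖ext1 x s - ext1 y t‖ ^ 2 = ‖x - y‖ ^ 2 + (s - t) ^ 2 := by
  simp [EuclideanSpace.norm_sq_eq, Fin.sum_univ_castSucc, ext1]

theorem SHard.succ {d k : ℕ} (h : SHard d k) : SHard (d + 1) (k + 1) := by
  obtain ⟨ι, hfin, f, c, r, hr, hc, h1, h2⟩ := h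
  let hh : ℝ := Real.sqrt (1 / 3 - r)
  have hh0 : 0 < hh := Real.sqrt_pos.2 (by linarith)
  have hhsq : hh ^ 2 = 1 / 3 - r := Real.sq_sqrt (by linarith)
  let t : ℝ := (hh ^ 2 - r) / (2 * hh)
  have ht : 2 * t * hh = hh ^ 2 - r := by simp only [t]; field_simp
  let g : Option ι → EuclideanSpace ℝ (Fin (d + 1)) :=
    fun o => o.elim (ext1 c hh) fun i => ext1 (f i) 0
  refine ⟨Option ι, inferInstance, g, ext1 c t, (hh - t) ^ 2, ?_, ?_, ?_, ?_⟩
  · have e : hh - t = (1 / 3) / (2 * hh) := by
      simp only [t]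
      field_simp
      linarith
    rw [e, div_pow, div_le_iff₀ (by positivity)]
    nlinarith
  · rintro (_ | i)
    · simp only [g, Option.elim, ext1_dist, sub_self, norm_zero]
      ring
    · simp only [g, Option.elim, ext1_dist, hc]
      nlinarith
  · rintro (_ | i) (_ | j)
    · simp [g]
    · simp only [g, Option.elim, ext1_dist]
      rw [norm_sub_rev, hc]
      linarith
    · simp only [g, Option.elim, ext1_dist, hc]
      linarith
    · simp only [g, Option.elim, ext1_dist]
      linarith [h1 i j]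
  · intro col
    by_cases hex : ∃ i, col (some i) = col none
    · obtain ⟨i, hi⟩ := hex
      refine ⟨some i, none, hi, ?_⟩
      simp only [g, Option.elim, ext1_dist, hc]
      linarith
    · push Not at hex
      choose col' hcol' using fun i => Fin.exists_succAbove_eq (hex i)
      obtain ⟨i, j, hij, hd⟩ := h2 col'
      refine ⟨some i, some j, by rw [← hcol' i, ← hcol' j, hij], ?_⟩
      simp only [g, Option.elim, ext1_dist]
      linarith

theorem borsuk_fails (d : ℕ) (hd : 63 ≤ d) :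
    ∃ Y : Set (EuclideanSpace ℝ (Fin d)),
      Bornology.IsBounded Y ∧ 0 < Metric.diam Y ∧ NeedsMore (d + 1) Y := by
  refine Hard.needsMore (Nat.succ_pos d) ?_
  rcases hd.eq_or_lt with rfl | hlt
  · exact base63
  · refine Hard.of_SHard ?_
    have key : ∀ n, SHard (64 + n) (65 + n) := by
      intro n
      induction n with
      | zero => exact base64
      | succ n ih => exact ih.succ
    obtain ⟨n, rfl⟩ := Nat.exists_eq_add_of_le (show 64 ≤ d by omega)
    have := key n
    rwa [show 65 + n = 64 + n + 1 by omega] at this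

end Vale.Agent.P052
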