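import Vale.Agent.P052.Checks

namespace Vale.Agent.P052

open Data Finset

theorem upto_spec {n : ℕ} {p : ℕ → Bool} (h : upto n p = true) {i : ℕ} (hi : i < n) :
    p i = true := by
  induction n with
  | zero => omega
  | succ k ih =>
    have h' : (p k && upto k p) = true := h
    rw [Bool.and_eq_true] at h'
    rcases Nat.lt_succ_iff_lt_or_eq.1 hi with h1 | h1
    · exact ih h'.2 h1
    · exact h1 ▸ h'.1

theorem digit (n : ℕ) : ∀ (c : ℕ → ℕ), (∀ j, j < n → c j < 128) → ∀ k, k < n →
    (∑ j ∈ range n, c j * 128 ^ j) / 128 ^ k % 128 = c k := by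
  induction n with
  | zero => intro c _ k hk; omega
  | succ n ih =>
    intro c hc k hk
    have hsum : ∑ j ∈ range (n + 1), c j * 128 ^ j
        = c 0 + 128 * ∑ j ∈ range n, c (j + 1) * 128 ^ j := by
      rw [Finset.sum_range_succ', Finset.mul_sum, add_comm]
      simp only [pow_zero, mul_one]
      congr 1
      apply Finset.sum_congr rfl
      intro j _
      ring
    rw [hsum]
    have h0 := hc 0 (by omega)
    cases k with
    | zero =>
      simp only [pow_zero, Nat.div_one]
      omega
    | succ k =>
      rw [pow_succ', ← Nat.div_div_eq_div_mul]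
      have : (c 0 + 128 * ∑ j ∈ range n, c (j + 1) * 128 ^ j) / 128
          = ∑ j ∈ range n, c (j + 1) * 128 ^ j := by omega
      rw [this]
      exact ih (fun j => c (j + 1)) (fun j hj => hc _ (by omega)) k (by omega)

theorem digit_unique {n : ℕ} {c e : ℕ → ℕ} (hc : ∀ j, j < n → c j < 128)
    (he : ∀ j, j < n → e j < 128)
    (h : ∑ j ∈ range n, c j * 128 ^ j = ∑ j ∈ range n, e j * 128 ^ j) {k : ℕ} (hk : k < n) :
    c k = e k := by
  rw [← digit n c hc k hk, h, digit n e he k hk]

theorem packOf_eq (l : List ℕ) : packOf l = (l.map fun j => 128 ^ j).sum := by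
  induction l with
  | nil => rfl
  | cons a l ih =>
    rw [List.map_cons, List.sum_cons, ← ih]
    change 1 <<< (7 * a) + packOf l = _
    rw [Nat.shiftLeft_eq, one_mul, pow_mul]
    norm_num

theorem sumPk_eq (l : List ℕ) : sumPk l = (l.map pk).sum := by
  induction l with
  | nil => rfl
  | cons a l ih =>
    rw [List.map_cons, List.sum_cons, ← ih]
    rfl

theorem list_sum_eq {M : Type} [AddCommMonoid M] (l : List ℕ) (hn : l.Nodup)
    (hl : ∀ j ∈ l, j < 416) (F : ℕ → M) :
    (l.map F).sum = ∑ j ∈ range 416, if j ∈ l then F j else 0 := by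
  rw [← List.sum_toFinset F hn, ← Finset.sum_filter]
  refine Finset.sum_congr ?_ fun _ _ => rfl
  ext j
  simp only [List.mem_toFinset, Finset.mem_filter, Finset.mem_range]
  exact ⟨fun h => ⟨hl j h, h⟩, fun h => h.2⟩

theorem packOf_sum (l : List ℕ) (hn : l.Nodup) (hl : ∀ j ∈ l, j < 416) :
    packOf l = ∑ j ∈ range 416, (if j ∈ l then 1 else 0) * 128 ^ j := by
  rw [packOf_eq, list_sum_eq l hn hl]
  apply Finset.sum_congr rfl
  intro j _
  split <;> simp

theorem adjb_iff_of_pack {x : ℕ} (l : List ℕ) (hn : l.Nodup) (hl : ∀ j ∈ l, j < 416)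
    (h : packOf l = pk x) {j : ℕ} (hj : j < 416) : adjb x j = true ↔ j ∈ l := by
  have hd := digit 416 (fun j => if j ∈ l then 1 else 0)
    (fun j _ => by split <;> omega) j hj
  rw [← packOf_sum l hn hl, h] at hd
  simp only [adjb, Nat.testBit_eq_decide_div_mod_eq, decide_eq_true_eq]
  have h7 : (2 : ℕ) ^ (7 * j) = 128 ^ j := by rw [pow_mul]; norm_num
  rw [h7]
  by_cases hm : j ∈ l
  · simp only [hm, if_true] at hd
    simp only [hm, iff_true]
    omega
  · simp only [hm, if_false] at hd
    simp only [hm, iff_false]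
    omega

theorem rows {i : ℕ} (hi : i < 416) :
    (nbrs i).Nodup ∧ (∀ j ∈ nbrs i, j < 416) ∧ packOf (nbrs i) = pk i := by
  have h := upto_spec checkRows_eq hi
  simp only [Bool.and_eq_true, decide_eq_true_eq, List.all_eq_true] at h
  exact ⟨(List.isChain_iff_pairwise.1 h.1.1).imp (fun hab => ne_of_lt hab),
    h.1.2, Nat.eq_of_beq_eq_true h.2⟩

theorem adjb_iff {i j : ℕ} (hi : i < 416) (hj : j < 416) : adjb i j = true ↔ j ∈ nbrs i :=
  adjb_iff_of_pack _ (rows hi).1 (rows hi).2.1 (rows hi).2.2 hj

theorem adjb_irrefl {i : ℕ} (hi : i < 416) : adjb i i = false := by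
  have h := upto_spec checkSymm_eq hi
  simp only [Bool.and_eq_true, Bool.not_eq_true'] at h
  exact h.2

theorem adjb_symm {i j : ℕ} (hi : i < 416) (hj : j < 416) (h : adjb i j = true) :
    adjb j i = true := by
  have h' := upto_spec checkSymm_eq hi
  simp only [Bool.and_eq_true, List.all_eq_true] at h'
  exact h'.1 j ((adjb_iff hi hj).1 h)

theorem pk_sum {i : ℕ} (hi : i < 416) :
    pk i = ∑ j ∈ range 416, (if adjb i j then 1 else 0) * 128 ^ j := by
  obtain ⟨hn, hl, hp⟩ := rows hi
  rw [← hp, packOf_sum _ hn hl]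
  apply Finset.sum_congr rfl
  intro j hj
  rw [Finset.mem_range] at hj
  simp [adjb_iff hi hj]

theorem geom_pack (n : ℕ) : ∑ j ∈ range n, 128 ^ j = (128 ^ n - 1) / 127 :=
  Nat.geomSum_eq (by norm_num) n

theorem rhs_sum (n i : ℕ) (hi : i < n) (b : ℕ → Bool) :
    20 * (∑ j ∈ range n, 128 ^ j) + 80 * 128 ^ i
        + 16 * (∑ j ∈ range n, (if b j then 1 else 0) * 128 ^ j)
      = ∑ j ∈ range n, (20 + (if j = i then 80 else 0) + (if b j then 16 else 0)) * 128 ^ j := by
  simp only [add_mul, Finset.sum_add_distrib, ite_mul, zero_mul, Finset.sum_ite_eq',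
    Finset.mem_range, hi, if_true, Finset.mul_sum]
  congr 1
  apply Finset.sum_congr rfl
  intro l _
  split <;> simp

theorem two_step {i j : ℕ} (hi : i < 416) (hj : j < 416) :
    (∑ l ∈ range 416, if adjb i l then (if adjb l j then 1 else 0) else 0)
      = 20 + (if j = i then 80 else 0) + (if adjb i j then 16 else 0) := by
  let c : ℕ → ℕ := fun j => ((nbrs i).map fun l => if adjb l j then 1 else 0).sum
  let e : ℕ → ℕ := fun j => 20 + (if j = i then 80 else 0) + (if adjb i j then 16 else 0)
  obtain ⟨hn, hl, -⟩ := rows hi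
  have hones : onesPack = ∑ j ∈ range 416, 128 ^ j := by
    exact (geom_pack 416).symm
  have hsq := Nat.eq_of_beq_eq_true (upto_spec checkSquare_eq hi)
  have hlhs : sumPk (nbrs i) = ∑ j ∈ range 416, c j * 128 ^ j := by
    rw [sumPk_eq, list_sum_eq _ hn hl]
    simp only [c, list_sum_eq _ hn hl, Finset.sum_mul]
    rw [Finset.sum_comm]
    apply Finset.sum_congr rfl
    intro l hlr
    by_cases hm : l ∈ nbrs i
    · simp only [hm, if_true]
      exact pk_sum (Finset.mem_range.1 hlr)
    · simp [hm]
  have hrhs : 20 * onesPack + 80 * (1 <<< (7 * i)) + 16 * pk i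
      = ∑ j ∈ range 416, e j * 128 ^ j := by
    have h7 : (2 : ℕ) ^ (7 * i) = 128 ^ i := by rw [pow_mul]; norm_num
    rw [Nat.shiftLeft_eq, one_mul, h7, hones, pk_sum hi]
    exact rhs_sum 416 i hi (adjb i)
  have hlen : (nbrs i).length = 100 := by
    have : ∀ (n c : ℕ), (fields c n).length = n := by
      intro n
      induction n with
      | zero => intro c; rfl
      | succ n ih => intro c; simp [fields, ih]
    exact this _ _
  have hc : ∀ j, j < 416 → c j < 128 := by
    intro j _
    have := List.sum_le_card_nsmul ((nbrs i).map fun l => if adjb l j then 1 else 0) 1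
      (by
        intro x hx
        obtain ⟨l, -, rfl⟩ := List.mem_map.1 hx
        split <;> omega)
    simp only [List.length_map, smul_eq_mul, mul_one] at this
    simp only [c]
    omega
  have he : ∀ j, j < 416 → e j < 128 := by
    intro j _
    simp only [e]
    split_ifs <;> omega
  have := digit_unique hc he (by rw [← hlhs, ← hrhs]; exact hsq) hj
  simp only [c, e, list_sum_eq _ hn hl] at this
  rw [← this]
  apply Finset.sum_congr rfl
  intro l hl'
  rw [Finset.mem_range] at hl'
  simp [adjb_iff hi hl']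

theorem fld_lt {g h a : ℕ} (hg : checkAut g h = true) (ha : a < 416) : fld g a < 416 := by
  have := upto_spec hg ha
  simp only [Bool.and_eq_true, decide_eq_true_eq] at this
  exact this.1.1

theorem fld_inj {g h a b : ℕ} (hg : checkAut g h = true) (ha : a < 416) (hb : b < 416)
    (hab : fld g a = fld g b) : a = b := by
  have h1 := upto_spec hg ha
  have h2 := upto_spec hg hb
  simp only [Bool.and_eq_true] at h1 h2
  have e1 := Nat.eq_of_beq_eq_true h1.1.2
  have e2 := Nat.eq_of_beq_eq_true h2.1.2
  rw [← e1, hab, e2]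

theorem fld_adj {g h a b : ℕ} (hg : checkAut g h = true) (ha : a < 416) (hb : b < 416)
    (hab : adjb a b = true) : adjb (fld g a) (fld g b) = true := by
  have h1 := upto_spec hg ha
  simp only [Bool.and_eq_true] at h1
  have e3 := Nat.eq_of_beq_eq_true h1.2
  obtain ⟨hn, hl, -⟩ := rows ha
  refine (adjb_iff_of_pack ((nbrs a).map (fld g)) ?_ ?_ e3 (fld_lt hg hb)).2 ?_
  · exact hn.map_on fun x hx y hy h => fld_inj hg (hl x hx) (hl y hy) h
  · intro j hj
    obtain ⟨x, hx, rfl⟩ := List.mem_map.1 hj
    exact fld_lt hg (hl x hx)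
  · exact List.mem_map.2 ⟨b, (adjb_iff ha hb).1 hab, rfl⟩

theorem noCl_spec : ∀ (k : ℕ) (l s : List ℕ), noCl k l = true → s.Sublist l →
    s.Pairwise (fun a b => adjb a b = true) → s.length < k := by
  intro k
  induction k with
  | zero => intro l s h; exact absurd h (by simp [noCl])
  | succ k ihk =>
    intro l
    induction l with
    | nil => intro s _ hs _; simp [List.sublist_nil.1 hs]
    | cons v t iht =>
      intro s h hs hp
      have h' : (noCl k (t.filter (adjb v)) && noCl (k + 1) t) = true := h
      rw [Bool.and_eq_true] at h'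
      cases hs with
      | cons _ hs' => exact iht s h'.2 hs' hp
      | cons_cons _ hs' =>
        rename_i s'
        rw [List.pairwise_cons] at hp
        have hsub : s'.Sublist (t.filter (adjb v)) := by
          have := hs'.filter (adjb v)
          rwa [List.filter_eq_self.2 hp.1] at this
        have := ihk _ _ h'.1 hsub hp.2
        simp only [List.length_cons]
        omega

theorem clique_card_le (C : Finset ℕ) (hC : ∀ a ∈ C, a < 416)
    (hadj : ∀ a ∈ C, ∀ b ∈ C, a ≠ b → adjb a b = true) : C.card ≤ 5 := by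
  suffices h : ∀ (n : ℕ) (C : Finset ℕ), (∀ a ∈ C, a < 416) →
      (∀ a ∈ C, ∀ b ∈ C, a ≠ b → adjb a b = true) →
      ∀ x ∈ C, fld depthCode x ≤ n → C.card ≤ 5 by
    rcases C.eq_empty_or_nonempty with rfl | ⟨x, hx⟩
    · simp
    · exact h _ C hC hadj x hx le_rfl
  intro n
  induction n using Nat.strong_induction_on with
  | _ n ih =>
    intro C hC hadj x hx hxn
    by_cases hx0 : x = 0
    · subst hx0
      classical
      have hsubset : C.erase 0 ⊆ (nbrs 0).toFinset := by
        intro b hb
        rw [Finset.mem_erase] at hb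
        rw [List.mem_toFinset]
        exact (adjb_iff (by norm_num) (hC b hb.2)).1 (hadj 0 hx b hb.2 (Ne.symm hb.1))
      let s := (nbrs 0).filter (fun b => decide (b ∈ C.erase 0))
      have hs : s.toFinset = C.erase 0 := by
        ext b
        simp only [s, List.mem_toFinset, List.mem_filter, decide_eq_true_eq]
        exact ⟨fun h => h.2, fun h => ⟨List.mem_toFinset.1 (hsubset h), h⟩⟩
      have hsn : s.Nodup := (rows (by norm_num : 0 < 416)).1.filter _
      have hmem : ∀ b ∈ s, b ∈ C := fun b hb =>
        (Finset.mem_erase.1 (hs ▸ List.mem_toFinset.2 hb)).2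
      have hlt : s.length < 5 := by
        refine noCl_spec 5 (nbrs 0) s checkClique_eq List.filter_sublist ?_
        exact hsn.imp_of_mem fun ha hb hne => hadj _ (hmem _ ha) _ (hmem _ hb) hne
      have hcard : (C.erase 0).card = s.length := by
        rw [← hs, List.toFinset_card_of_nodup hsn]
      rw [Finset.card_erase_of_mem hx] at hcard
      omega
    · have ht := upto_spec checkTree_eq (hC x hx)
      simp only [Bool.or_eq_true, decide_eq_true_eq] at ht
      rcases ht with ht | ht
      · exact absurd (Nat.eq_of_beq_eq_true ht) hx0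
      obtain ⟨g, h, hg, hgx⟩ : ∃ g h, checkAut g h = true ∧ g = selG x := by
        by_cases hs : Nat.testBit selMask x = true
        · exact ⟨permB, permBInv, checkAutB_eq, by simp [selG, hs]⟩
        · exact ⟨permA, permAInv, checkAutA_eq, by simp [selG, hs]⟩
      rw [← hgx] at ht
      have hinj : Set.InjOn (fld g) C := fun a ha b hb hab =>
        fld_inj hg (hC a ha) (hC b hb) hab
      rw [← Finset.card_image_of_injOn hinj]
      refine ih (fld depthCode (fld g x)) (by omega) _ ?_ ?_ _ (Finset.mem_image_of_mem _ hx) le_rfl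
      · intro a ha
        obtain ⟨a', ha', rfl⟩ := Finset.mem_image.1 ha
        exact fld_lt hg (hC a' ha')
      · intro a ha b hb hab
        obtain ⟨a', ha', rfl⟩ := Finset.mem_image.1 ha
        obtain ⟨b', hb', rfl⟩ := Finset.mem_image.1 hb
        exact fld_adj hg (hC a' ha') (hC b' hb')
          (hadj a' ha' b' hb' fun h => hab (h ▸ rfl))

/-- The signed indicator vector of two bit masks. -/
def sgn (p m : ℕ) (j : ℕ) : ℤ :=
  (if Nat.testBit p j then 1 else 0) - (if Nat.testBit m j then 1 else 0)

theorem ker_spec {p m : ℕ} (h : checkKer p m = true) {i : ℕ} (hi : i < 416) :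
    (∑ j ∈ range 416, if adjb i j then sgn p m j else 0) = 20 * sgn p m i := by
  have hb := Nat.eq_of_beq_eq_true (upto_spec h hi)
  obtain ⟨hn, hl, -⟩ := rows hi
  have hcount : ∀ q : ℕ, (((nbrs i).countP (Nat.testBit q) : ℕ) : ℤ)
      = ((nbrs i).map fun j => if Nat.testBit q j then (1 : ℤ) else 0).sum := by
    intro q
    induction nbrs i with
    | nil => rfl
    | cons a l ih =>
      rw [List.countP_cons, List.map_cons, List.sum_cons, Nat.cast_add, ih]
      split <;> simp [add_comm]
  have : ((nbrs i).map (sgn p m)).sum = 20 * sgn p m i := by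
    have hs : ((nbrs i).map (sgn p m)).sum
        = ((nbrs i).map fun j => if Nat.testBit p j then (1 : ℤ) else 0).sum
          - ((nbrs i).map fun j => if Nat.testBit m j then (1 : ℤ) else 0).sum := by
      induction nbrs i with
      | nil => simp
      | cons a l ih =>
        simp only [List.map_cons, List.sum_cons, ih, sgn]
        ring
    rw [hs, ← hcount, ← hcount]
    simp only [sgn]
    have hz := congrArg (fun z : ℕ => (z : ℤ)) hb
    simp only [Nat.cast_add, Nat.cast_ite, Nat.cast_ofNat, Nat.cast_zero] at hz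
    split_ifs at hz ⊢ <;> omega
  rw [← this, list_sum_eq _ hn hl]
  apply Finset.sum_congr rfl
  intro j hj
  rw [Finset.mem_range] at hj
  simp [adjb_iff hi hj]

end Vale.Agent.P052
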